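import Vale.Agent.N090B.Ineq

/-! The test functions of one block, and the blocks with free parameters. -/

set_option linter.all false

namespace Vale.Agent.N090B

open Vale.Agent.P090 Finset

noncomputable section

theorem sys_of_block
    {β V X Q M : Type} [DecidableEq β] [Fintype V] [Nonempty V]
    [MulAction (FreeGroup AA) V] [MulAction (FreeGroup AA) X] [MulAction (FreeGroup β) Q]
    [MetricSpace M] (K R : ℕ) (hK : 1 ≤ K) (hKR : K ≤ R)
    (ι : X → M) (hι : Function.Injective ι)
    (pX : X → Q) (hp1 : ∀ (a : AA × Bool) z, sd β R (pX z) (pX (lt a • z)) ≤ 1)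
    (hdist : ∀ z z', dist (ι z) (ι z') = ((max (sd AA K z z') (sd β R (pX z) (pX z')) : ℕ) : ℝ))
    (hout : ∀ z m, m ∉ Set.range ι → (R : ℝ) ≤ dist (ι z) m)
    (j : V → X) (hj : ∀ (w : FreeGroup AA) v, j (w • v) = w • j v)
    (Z : Set X) (hZ : ∀ (w : FreeGroup AA), ∀ z ∈ Z, w • z ∈ Z)
    (bad : V → Prop)
    (D : V → X → AA × Bool → ℝ) (hD1 : ∀ x z a, |D x z a| ≤ 1)
    (hD2 : ∀ x, ∀ z ∈ Z, InR (β := β) R (pX (j x)) (pX z) →
      ∑ a, D x z a = 2 * Fintype.card AA - 2)
    (hD3 : ∀ x, ∀ z ∈ Z, ∀ a b : AA × Bool, InR (β := β) R (pX (j x)) (pX z) →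
      InR (β := β) R (pX (j x)) (pX (lt b • z)) → D x (lt b • z) a = D x z a)
    (hD4 : ∀ x, ∀ z ∈ Z, ∀ a : AA × Bool, InR (β := β) R (pX (j x)) (pX z) →
      InR (β := β) R (pX (j (lt a • x))) (pX z) →
      ¬ bad x → ¬ bad (lt a • x) → D (lt a • x) z (ng a) = - D x z a)
    (p : V → X) (hp : ∀ v, pX (p v) = pX (j v))
    (bt : ℝ) (hfew : (Nat.card {v // bad v} : ℝ) ≤ bt * Fintype.card V)
    (A M₁ M₀ : Finset M) (hA : ∀ v, ι (p v) ∈ A) (hM₁ : ∀ m ∈ M₁, m ∉ Set.range ι)
    (hM₀ : ∀ z, ι z ∈ M₀ → z ∈ Z) :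
    Nonempty (Sys M K R bt A M₁ M₀) := by
  classical
  have hKpos : (0 : ℝ) < K := by exact_mod_cast (show 0 < K by omega)
  have hRpos : (0 : ℝ) < R := by exact_mod_cast (show 0 < R by omega)
  have hKR' : (K : ℝ) ≤ R := by exact_mod_cast hKR
  have hR1 : (1 : ℝ) ≤ R := by exact_mod_cast (show 1 ≤ R by omega)
  have hK1 : (1 : ℝ) ≤ K := by exact_mod_cast hK
  -- distance facts
  have hdα : ∀ z z', (sd AA K z z' : ℝ) ≤ dist (ι z) (ι z') := by
    intro z z'
    rw [hdist]
    exact_mod_cast le_max_left _ _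
  have hdβ : ∀ z z', (sd β R (pX z) (pX z') : ℝ) ≤ dist (ι z) (ι z') := by
    intro z z'
    rw [hdist]
    exact_mod_cast le_max_right _ _
  have hsepX : ∀ z z', z ≠ z' → 1 ≤ dist (ι z) (ι z') := by
    intro z z' hzz
    refine le_trans ?_ (hdα z z')
    have : sd AA K z z' ≠ 0 := fun h => hzz ((sd_eq_zero (by omega)).1 h)
    exact_mod_cast Nat.one_le_iff_ne_zero.2 this
  -- the cut-off
  set chi : V → X → ℝ := fun x z => 1 - (sd β R (pX (j x)) (pX z) : ℝ) / R with hchi
  have hsdR : ∀ u v : Q, (sd β R u v : ℝ) ≤ R := fun u v => by exact_mod_cast sd_le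
  have hchi0 : ∀ x z, 0 ≤ chi x z := by
    intro x z
    have h := div_le_one_of_le₀ (hsdR (pX (j x)) (pX z)) hRpos.le
    simp only [hchi]
    linarith only [h]
  have hchi1 : ∀ x z, chi x z ≤ 1 := by
    intro x z
    have : (0 : ℝ) ≤ (sd β R (pX (j x)) (pX z) : ℝ) / R := by (clear * - hRpos; positivity)
    simp only [hchi]
    linarith only [this]
  -- out of range
  have hchi_out : ∀ x z, ¬ InR (β := β) R (pX (j x)) (pX z) → chi x z = 0 := by
    intro x z h
    have h1 : ¬ sd β R (pX (j x)) (pX z) < R := fun h' => h (sd_lt_iff_InR.1 h')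
    have h2 : sd β R (pX (j x)) (pX z) = R := le_antisymm sd_le (not_lt.1 h1)
    simp only [hchi, h2]
    rw [div_self hRpos.ne', sub_self]
  have hsdβ : ∀ u v w : Q, |(sd β R u v : ℝ) - sd β R u w| ≤ sd β R v w := by
    intro u v w
    rw [abs_le]
    constructor
    · have h1 : sd β R u w ≤ sd β R u v + sd β R v w := sd_triangle u v w
      have h2 : (sd β R u w : ℝ) ≤ sd β R u v + sd β R v w := by exact_mod_cast h1
      linarith only [h2]
    · have h1 : sd β R u v ≤ sd β R u w + sd β R w v := sd_triangle u w v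
      rw [sd_comm w v] at h1
      have h2 : (sd β R u v : ℝ) ≤ sd β R u w + sd β R v w := by exact_mod_cast h1
      linarith only [h2]
  have hchi_diff : ∀ x z z', |chi x z - chi x z'| ≤ (sd β R (pX z) (pX z') : ℝ) / R := by
    intro x z z'
    have h1 : chi x z - chi x z'
        = -((sd β R (pX (j x)) (pX z) : ℝ) - sd β R (pX (j x)) (pX z')) / R := by
      simp only [hchi]; ring
    rw [h1, abs_div, abs_neg, abs_of_pos hRpos]
    exact div_le_div_of_nonneg_right (hsdβ _ _ _) hRpos.le
  have hchi_letter : ∀ x z (b : AA × Bool), |chi x (lt b • z) - chi x z| ≤ 1 / R := by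
    intro x z b
    refine (hchi_diff x (lt b • z) z).trans ?_
    refine div_le_div_of_nonneg_right ?_ hRpos.le
    rw [sd_comm]
    exact_mod_cast hp1 b z
  have hchi_left : ∀ x z (b : AA × Bool), |chi x z - chi (lt b • x) z| ≤ 1 / R := by
    intro x z b
    have h1 : chi x z - chi (lt b • x) z
        = -((sd β R (pX z) (pX (j x)) : ℝ) - sd β R (pX z) (pX (j (lt b • x)))) / R := by
      simp only [hchi]
      rw [sd_comm (pX z) (pX (j x)), sd_comm (pX z)]
      ring
    rw [h1, abs_div, abs_neg, abs_of_pos hRpos]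
    refine div_le_div_of_nonneg_right ((hsdβ _ _ _).trans ?_) hRpos.le
    rw [hj]
    exact_mod_cast hp1 b (j x)
  -- the test functions
  set θ : V → AA × Bool → X → ℝ := fun x a z => if z ∈ Z then chi x z * D x z a else 0 with hθ
  have hZiff : ∀ (b : AA × Bool) z, lt b • z ∈ Z ↔ z ∈ Z := by
    intro b z
    constructor
    · intro h
      have := hZ (lt b)⁻¹ _ h
      rwa [inv_smul_smul] at this
    · exact hZ (lt b) z
  have hchiabs : ∀ x z, |chi x z| ≤ 1 := fun x z => by
    rw [abs_of_nonneg (hchi0 x z)]; exact hchi1 x z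
  have hθabs : ∀ x a z, |θ x a z| ≤ chi x z := by
    intro x a z
    simp only [hθ]
    split_ifs with h
    · rw [abs_mul, abs_of_nonneg (hchi0 x z)]
      exact mul_le_of_le_one_right (hchi0 x z) (hD1 x z a)
    · rw [abs_zero]; exact hchi0 x z
  have hθ1 : ∀ x a z, |θ x a z| ≤ 1 := fun x a z => (hθabs x a z).trans (hchi1 x z)
  have hθ_letter : ∀ x a (b : AA × Bool) z, |θ x a (lt b • z) - θ x a z| ≤ 1 / R := by
    intro x a b z
    by_cases hz : z ∈ Z
    · have hz' : lt b • z ∈ Z := (hZiff b z).2 hz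
      by_cases h1 : InR (β := β) R (pX (j x)) (pX z)
      · by_cases h2 : InR (β := β) R (pX (j x)) (pX (lt b • z))
        · have h3 := hD3 x z hz a b h1 h2
          simp only [hθ, if_pos hz, if_pos hz', h3]
          rw [← sub_mul, abs_mul]
          calc |chi x (lt b • z) - chi x z| * |D x z a| ≤ (1 / R) * 1 :=
                mul_le_mul (hchi_letter x z b) (hD1 x z a) (abs_nonneg _) (by (clear * - hRpos; positivity))
            _ = 1 / R := mul_one _
        · have h3 := hchi_out x _ h2
          have h4 : θ x a (lt b • z) = 0 := by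
            have := hθabs x a (lt b • z)
            rw [h3] at this
            exact abs_nonpos_iff.1 this
          have h5 := hchi_letter x z b
          rw [h3, zero_sub, abs_neg, abs_of_nonneg (hchi0 x z)] at h5
          rw [h4, zero_sub, abs_neg]
          exact (hθabs x a z).trans h5
      · have h3 := hchi_out x _ h1
        have h4 : θ x a z = 0 := by
          have := hθabs x a z
          rw [h3] at this
          exact abs_nonpos_iff.1 this
        have h5 := hchi_letter x z b
        rw [h3, sub_zero, abs_of_nonneg (hchi0 x _)] at h5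
        rw [h4, sub_zero]
        exact (hθabs x a _).trans h5
    · have hz' : lt b • z ∉ Z := fun h => hz ((hZiff b z).1 h)
      simp only [hθ, if_neg hz, if_neg hz', sub_zero, abs_zero]
      (clear * - hRpos; positivity)
  have hθX : ∀ x a z z', |θ x a z - θ x a z'| ≤ 2 / K * dist (ι z) (ι z') := by
    intro x a z z'
    by_cases h : sd AA K z z' < K
    · obtain ⟨w, hw1, hw2⟩ := sd_lt h
      have h1 := abs_smul_sub_le (θ x a) (1 / R) (fun b z => hθ_letter x a b z) w z
      rw [hw2, hw1] at h1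
      rw [abs_sub_comm]
      have h2 := hdα z z'
      calc |θ x a z' - θ x a z| ≤ 1 / R * (sd AA K z z' : ℝ) := h1
        _ ≤ 2 / K * dist (ι z) (ι z') := by
          refine mul_le_mul ?_ h2 (by (clear * -; positivity)) (by positivity)
          calc (1 : ℝ) / R ≤ 1 / K := one_div_le_one_div_of_le hKpos hKR'
            _ ≤ 2 / K := by gcongr; norm_num
    · have h1 : sd AA K z z' = K := le_antisymm sd_le (not_lt.1 h)
      have h2 := hdα z z'
      rw [h1] at h2
      calc |θ x a z - θ x a z'| ≤ |θ x a z| + |θ x a z'| := abs_sub _ _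
        _ ≤ 2 := by linarith only [hθ1 x a z, hθ1 x a z']
        _ = 2 / K * K := by field_simp
        _ ≤ 2 / K * dist (ι z) (ι z') := by (clear * - h2 hK; gcongr)
  -- antisymmetry up to `1 / R`
  have hψ : ∀ x (a : AA × Bool) z, ¬ bad x → ¬ bad (lt a • x) →
      |θ x a z + θ (lt a • x) (ng a) z| ≤ 1 / R := by
    intro x a z hx hax
    by_cases hz : z ∈ Z
    · by_cases h1 : InR (β := β) R (pX (j x)) (pX z)
      · by_cases h2 : InR (β := β) R (pX (j (lt a • x))) (pX z)
        · have h3 := hD4 x z hz a h1 h2 hx hax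
          simp only [hθ, if_pos hz, h3]
          have h4 : chi x z * D x z a + chi (lt a • x) z * -D x z a
              = (chi x z - chi (lt a • x) z) * D x z a := by ring
          rw [h4, abs_mul]
          calc |chi x z - chi (lt a • x) z| * |D x z a| ≤ (1 / R) * 1 :=
                mul_le_mul (hchi_left x z a) (hD1 x z a) (abs_nonneg _) (by (clear * - hRpos; positivity))
            _ = 1 / R := mul_one _
        · have h3 := hchi_out (lt a • x) z h2
          have h4 : θ (lt a • x) (ng a) z = 0 := by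
            have := hθabs (lt a • x) (ng a) z
            rw [h3] at this
            exact abs_nonpos_iff.1 this
          have h5 := hchi_left x z a
          rw [h3, sub_zero, abs_of_nonneg (hchi0 x z)] at h5
          rw [h4, add_zero]
          exact (hθabs x a z).trans h5
      · have h3 := hchi_out x z h1
        have h4 : θ x a z = 0 := by
          have := hθabs x a z
          rw [h3] at this
          exact abs_nonpos_iff.1 this
        have h5 := hchi_left x z a
        rw [h3, zero_sub, abs_neg, abs_of_nonneg (hchi0 _ z)] at h5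
        rw [h4, zero_add]
        exact (hθabs _ _ z).trans h5
    · simp only [hθ, if_neg hz, add_zero, abs_zero]
      (clear * - hRpos; positivity)
  have hsumθ : ∀ x z, ∑ a, θ x a z = 2 * (if z ∈ Z then chi x z else 0) := by
    intro x z
    by_cases hz : z ∈ Z
    · simp only [hθ, if_pos hz]
      rw [← mul_sum]
      by_cases h1 : InR (β := β) R (pX (j x)) (pX z)
      · rw [hD2 x z hz h1]
        simp only [Fintype.card_fin]
        push_cast
        ring
      · rw [hchi_out x z h1]
        ring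
    · simp only [hθ, if_neg hz]
      simp only [sum_const_zero, mul_zero]
  have hrem : ∀ x m, Function.extend ι (chi x) 0 m
      - 1 / 2 * ∑ a, Function.extend ι (θ x a) 0 m =
      Function.extend ι (fun z => if z ∈ Z then 0 else chi x z) 0 m := by
    intro x m
    by_cases hm : m ∈ Set.range ι
    · obtain ⟨z, rfl⟩ := hm
      simp only [hι.extend_apply]
      rw [hsumθ]
      split_ifs <;> ring
    · simp only [Function.extend_apply' _ _ _ hm, Pi.zero_apply, sum_const_zero]
      ring
  refine ⟨{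
    V := V
    act := fun a x => lt a • x
    hact := fun a x => by rw [lt_ng, inv_smul_smul]
    pt := fun x => ι (j x)
    fp := fun x => ι (p x)
    fp_mem := hA
    pf := fun x => by
      rw [hdist, hp, sd_self]
      exact_mod_cast max_le sd_le (Nat.zero_le _)
    step := fun a x => by
      rw [hdist, hj]
      have h1 : sd AA K (j x) (lt a • j x) ≤ 1 := (sd_smul_le (lt a) (j x)).trans (by simp)
      exact_mod_cast max_le h1 (hp1 a (j x))
    chi := fun x => Function.extend ι (chi x) 0
    th := fun x a => Function.extend ι (θ x a) 0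
    chi0 := fun x m => ?_
    chi1 := fun x m => ?_
    chi_lip := fun x => extend_lip ι hι (by (clear * - hRpos; positivity)) hout (chi x)
      (fun z z' => (hchi_diff x z z').trans (by
        rw [div_eq_mul_one_div, mul_comm]
        exact mul_le_mul_of_nonneg_left (hdβ z z') (by (clear * - hRpos; positivity))))
      (fun z => (hchiabs x z).trans (by
        rw [one_div, inv_mul_cancel₀ hRpos.ne']))
    chi_fp := fun x => by
      rw [hι.extend_apply]
      simp only [hchi]
      rw [hp, sd_self]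
      simp
    chi_out := fun x m hm => Function.extend_apply' _ _ _ (hM₁ m hm)
    th1 := fun x a m => ?_
    th_lip := fun x a => extend_lip ι hι (by positivity) hout (θ x a) (hθX x a)
      (fun z => (hθ1 x a z).trans (by
        calc (1 : ℝ) ≤ 2 := by norm_num
          _ = 2 / K * K := by field_simp
          _ ≤ 2 / K * R := by (clear * - hKR' hK; gcongr)))
    th_out := fun x a m hm => Function.extend_apply' _ _ _ (hM₁ m hm)
    rem0 := fun x m => ?_
    rem1 := fun x m => ?_
    rem_out := fun x m hm0 => ?_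
    bad := bad
    anti := fun x a m hx hax => ?_
    few := hfew }⟩
  · by_cases hm : m ∈ Set.range ι
    · obtain ⟨z, rfl⟩ := hm
      rw [hι.extend_apply]
      exact hchi0 x z
    · rw [Function.extend_apply' _ _ _ hm]
      exact le_rfl
  · by_cases hm : m ∈ Set.range ι
    · obtain ⟨z, rfl⟩ := hm
      rw [hι.extend_apply]
      exact hchi1 x z
    · rw [Function.extend_apply' _ _ _ hm]
      exact zero_le_one
  · by_cases hm : m ∈ Set.range ι
    · obtain ⟨z, rfl⟩ := hm
      rw [hι.extend_apply]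
      exact hθ1 x a z
    · rw [Function.extend_apply' _ _ _ hm]
      simp
  · rw [hrem]
    by_cases hm : m ∈ Set.range ι
    · obtain ⟨z, rfl⟩ := hm
      rw [hι.extend_apply]
      split_ifs
      · exact le_rfl
      · exact hchi0 x z
    · rw [Function.extend_apply' _ _ _ hm]
      exact le_rfl
  · rw [hrem]
    by_cases hm : m ∈ Set.range ι
    · obtain ⟨z, rfl⟩ := hm
      rw [hι.extend_apply]
      split_ifs
      · exact zero_le_one
      · exact hchi1 x z
    · rw [Function.extend_apply' _ _ _ hm]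
      exact zero_le_one
  · rw [hrem]
    by_cases hm : m ∈ Set.range ι
    · obtain ⟨z, rfl⟩ := hm
      rw [hι.extend_apply, if_pos (hM₀ z hm0)]
    · rw [Function.extend_apply' _ _ _ hm]
      rfl
  · by_cases hm : m ∈ Set.range ι
    · obtain ⟨z, rfl⟩ := hm
      rw [hι.extend_apply, hι.extend_apply]
      exact hψ x a z hx hax
    · rw [Function.extend_apply' _ _ _ hm, Function.extend_apply' _ _ _ hm]
      simp only [Pi.zero_apply, add_zero, abs_zero]
      (clear * - hRpos; positivity)

/-! ### Blocks with free parameters -/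

/-- first scale -/
def pK (t : ℕ × ℕ × ℕ) : ℕ := t.1 + 1

/-- second scale -/
def pR (t : ℕ × ℕ × ℕ) : ℕ := t.1 + 1 + t.2.1

/-- index of the underlying construction -/
def pk (t : ℕ × ℕ × ℕ) : ℕ := pR t + t.2.2

theorem pK_le (t : ℕ × ℕ × ℕ) : pK t ≤ pR t := by unfold pK pR; omega

theorem pR_le (t : ℕ × ℕ × ℕ) : pR t ≤ RR (pk t) := by
  have := le_RR (pk t)
  unfold pk at this ⊢
  omega

/-- the metric of the block -/
def dT (t : ℕ × ℕ × ℕ) (x y : XX (pk t)) : ℕ :=
  max (sd AA (pK t) x y) (sd BB (pR t) (pX (pk t) x) (pX (pk t) y))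

/-- the block with parameters `t` -/
def blkT (t : ℕ × ℕ × ℕ) : Blk where
  X := XX (pk t)
  R := pR t
  d := dT t
  R_pos := (Nat.succ_le_succ (Nat.zero_le _)).trans (pK_le t)
  d_self x := by simp [dT, sd_self]
  d_eq x y h := by
    have h1 : sd AA (pK t) x y = 0 := by
      unfold dT at h; omega
    exact (sd_eq_zero (Nat.succ_pos _)).1 h1
  d_comm x y := by unfold dT; rw [sd_comm x y, sd_comm (pX _ x) (pX _ y)]
  d_tri x y z := by
    unfold dT
    have h1 := sd_triangle (α := AA) (T := pK t) x y z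
    have h2 := sd_triangle (α := BB) (T := pR t) (pX _ x) (pX _ y) (pX _ z)
    omega
  d_le x y := by
    unfold dT
    have h1 := sd_le (α := AA) (T := pK t) (x := x) (y := y)
    have h2 := sd_le (α := BB) (T := pR t) (x := pX _ x) (y := pX _ y)
    have := pK_le t
    omega

instance (j : ℕ → ℕ × ℕ × ℕ) : ∀ i, Countable (blkT (j i)).X :=
  fun i => inferInstanceAs (Countable (XX (pk (j i))))

/-- The glued space of the blocks with parameters `j i`. -/
abbrev MT (j : ℕ → ℕ × ℕ × ℕ) : Type := Glue fun i => blkT (j i)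

/-- The level of a point. -/
def levT (j : ℕ → ℕ × ℕ × ℕ) : MT j → ℕ
  | none => 0
  | some ⟨_, Sum.inl _⟩ => 0
  | some ⟨_, Sum.inr p⟩ => p.1

/-- The index of the block of a point. -/
def idxT (j : ℕ → ℕ × ℕ × ℕ) : MT j → ℕ
  | none => 0
  | some p => p.1

theorem InR.mono' {β Q : Type} [DecidableEq β] [MulAction (FreeGroup β) Q] {R R' : ℕ}
    (h : R ≤ R') {u v : Q} (huv : InR (β := β) R u v) : InR (β := β) R' u v := by
  obtain ⟨σ, h1, h2⟩ := huv
  exact ⟨σ, h1.trans_le h, h2⟩

open Classical in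
/-- The anchors of the block `i`. -/
def ancT (j : ℕ → ℕ × ℕ × ℕ) (i : ℕ) : Finset (MT j) :=
  Finset.univ.image fun u : Qt (pk (j i)) =>
    (Glue.inc (fun i => blkT (j i)) i (anc (pk (j i)) u) : MT j)

theorem mem_ancT (j : ℕ → ℕ × ℕ × ℕ) (i : ℕ) (x : MT j) :
    x ∈ ancT j i ↔ ∃ u, Glue.inc (fun i => blkT (j i)) i (anc (pk (j i)) u) = x := by
  unfold ancT
  simp

theorem sys_MT (j : ℕ → ℕ × ℕ × ℕ) (i : ℕ) (M₁ M₀ : Finset (MT j))
    (hM₁ : ∀ m ∈ M₁, idxT j m < i) :
    Nonempty (Sys (MT j) (pK (j i)) (pR (j i)) (1 / 2 ^ pk (j i)) (ancT j i) M₁ M₀) := by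
  classical
  set k : ℕ := pk (j i) with hkdef
  let B : ℕ → Blk := fun i => blkT (j i)
  let ι : XX k → MT j := Glue.inc B i
  let N : ℕ := M₀.sup (levT j) + 1
  have hN : ∀ n (x : VN k n), ι (ver k n x) ∈ M₀ → n < N := by
    intro n x hx
    have h1 : levT j (ι (ver k n x)) ≤ M₀.sup (levT j) := Finset.le_sup hx
    have h2 : levT j (ι (ver k n x)) = n := rfl
    omega
  have hZ4 : 4 * (2 * RR k + (gs k N - 4 - 8 * RR k) / 4) + 4 ≤ gs k N := by
    have := gs_ge k N
    omega
  obtain ⟨D, hD1, hD2, hD3, hD4⟩ := lemmaD (α := AA) (β := BB) (V := VN k N) (X := XX k)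
    (Q := Qt k) Prod.fst (fun w x => coc (PN k N) (QQ k) w x) (cX k)
    (fun x => (x.2.2 : Qt k)) (pX k) (RR k) ((gs k N - 4 - 8 * RR k) / 4)
    (fun w w' x => coc_mul w w' x) (fun w x => map_coc w x) (fun w x => norm_coc w x)
    (fun w x => third_smul w x) (cX_mul k) (pX_smul k) (ZZ k N) (ZZ_smul k N) (Sz k)
    (Sz_smul k)
    (by
      rintro z (⟨u, rfl⟩ | ⟨n, hn, x, rfl⟩)
      · rw [Sz_anc]; omega
      · rw [Sz_ver]
        have := gs_ge_SS k hn
        omega)
    (Bad k N)
    (by
      rintro z (⟨u, rfl⟩ | ⟨n, hn, x, rfl⟩)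
      · left
        intro w
        exact ⟨smul_anc k w u, cX_anc k w u⟩
      · right
        refine ⟨fun w => ⟨map_coc w x, norm_coc w x⟩, fun y w hw hc => ?_⟩
        exact ⟨n, hn, x, w, hw, hc⟩)
    (by
      intro σ hσ hσR u hu
      rw [Qt_smul] at hu
      have h1 : homQ k σ = 1 := by simpa using hu
      exact gg_spec BB (2 * RR k) σ hσ hσR h1)
    (by
      intro w hw hwn x
      exact smul_ne_of_girth (gg_spec AA (gs k N)) w hw (hwn.trans hZ4) x)
  have hR : pR (j i) ≤ RR k := pR_le (j i)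
  have : Nonempty (VN k N) := ⟨(1, fun _ => 0, 1)⟩
  exact sys_of_block (β := BB) (V := VN k N) (X := XX k) (Q := Qt k) (M := MT j)
    (pK (j i)) (pR (j i)) (Nat.succ_le_succ (Nat.zero_le _)) (pK_le _) ι
    (Glue.inc_injective B i) (pX k)
    (by
      intro a z
      rw [pX_smul]
      exact (sd_smul_le _ _).trans ((norm_cX_le k _ _).trans (by simp)))
    (fun z z' => Glue.dist_inc B i z z')
    (fun z m hm => Glue.le_dist_out B i z m hm)
    (ver k N) (fun w v => (smul_ver k w N v).symm) (ZZ k N) (ZZ_smul k N) (Bad k N) D hD1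
    (fun x z hz h => hD2 x z hz (InR.mono' hR h))
    (fun x z hz a b h h' => hD3 x z hz a b (InR.mono' hR h) (InR.mono' hR h'))
    (fun x z hz a h h' => hD4 x z hz a (InR.mono' hR h) (InR.mono' hR h'))
    (fun v => anc k (v.2.2 : Qt k)) (fun v => rfl) _
    ((card_Bad_le k N).trans (le_of_eq (by ring))) _ M₁ M₀
    (fun v => (mem_ancT j i _).2 ⟨_, rfl⟩)
    (by
      rintro m hm ⟨z, rfl⟩
      exact lt_irrefl i (hM₁ _ hm))
    (by
      intro z hz
      rcases XX_cases k z with ⟨u, rfl⟩ | ⟨n, y, rfl⟩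
      · exact Or.inl ⟨u, rfl⟩
      · exact Or.inr ⟨n, hN n y hz, y, rfl⟩)

/-- A glued space in which the scales `(K, R)` occur with arbitrarily large index is hard. -/
theorem hard_MT (j : ℕ → ℕ × ℕ × ℕ) (K R : ℕ)
    (h : ∀ n, ∃ i, n ≤ i ∧ pK (j i) = K ∧ pR (j i) = R ∧ n ≤ pk (j i)) :
    Hard (MT j) (Glue.base fun i => blkT (j i)) K R := by
  classical
  intro β hβ M₁
  obtain ⟨n, hn⟩ := exists_pow_lt_of_lt_one hβ (show (1 / 2 : ℝ) < 1 by norm_num)
  obtain ⟨i, hi, hK, hR, hk⟩ := h (max n (M₁.sup (idxT j) + 1))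
  refine ⟨ancT j i, ?_, fun M₀ => ?_⟩
  · intro x hx
    obtain ⟨u, rfl⟩ := (mem_ancT j i x).1 hx
    exact (le_of_eq (Glue.dist_inc_base (fun i => blkT (j i)) i _)).trans
      (by rw [← hR]; exact le_rfl)
  · obtain ⟨S⟩ := sys_MT j i M₁ M₀ (fun m hm => by
      have h1 : idxT j m ≤ M₁.sup (idxT j) := Finset.le_sup hm
      have h2 := le_max_right n (M₁.sup (idxT j) + 1)
      omega)
    rw [hK, hR] at S
    have hb : (1 / 2 ^ pk (j i) : ℝ) ≤ β := by
      refine le_trans ?_ hn.le
      rw [← one_div_pow]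
      exact pow_le_pow_of_le_one (by norm_num) (by norm_num) ((le_max_left _ _).trans hk)
    exact ⟨{ S with few := S.few.trans (mul_le_mul_of_nonneg_right hb (Nat.cast_nonneg _)) }⟩

/-- all parameters -/
def jAll (i : ℕ) : ℕ × ℕ × ℕ := (i.unpair.1, i.unpair.2.unpair.1, i.unpair.2.unpair.2)

theorem hard_all (K R : ℕ) (hK : 1 ≤ K) (hKR : K ≤ R) :
    Hard (MT jAll) (Glue.base fun i => blkT (jAll i)) K R := by
  refine hard_MT jAll K R fun n => ⟨Nat.pair (K - 1) (Nat.pair (R - K) n), ?_, ?_, ?_, ?_⟩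
  · exact (Nat.right_le_pair _ _).trans (Nat.right_le_pair _ _)
  · simp only [jAll, pK, Nat.unpair_pair]; omega
  · simp only [jAll, pR, Nat.unpair_pair]; omega
  · simp only [jAll, pk, Nat.unpair_pair]; omega

/-- all parameters with second scale `D` -/
def jBd (D i : ℕ) : ℕ × ℕ × ℕ :=
  (min i.unpair.1 (D - 1), D - 1 - min i.unpair.1 (D - 1), i.unpair.2)

theorem pR_jBd {D : ℕ} (hD : 1 ≤ D) (i : ℕ) : pR (jBd D i) = D := by
  simp only [jBd, pR]; omega

theorem hard_bd (K D : ℕ) (hK : 1 ≤ K) (hKD : K ≤ D) :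
    Hard (MT (jBd D)) (Glue.base fun i => blkT (jBd D i)) K D := by
  refine hard_MT (jBd D) K D fun n => ⟨Nat.pair (K - 1) n, Nat.right_le_pair _ _, ?_,
    pR_jBd (hK.trans hKD) _, ?_⟩
  · simp only [jBd, pK, Nat.unpair_pair]; omega
  · simp only [jBd, pk, Nat.unpair_pair]; omega

theorem gd_bd {D : ℕ} (hD : 1 ≤ D) (p q : MT (jBd D)) :
    gd (fun i => blkT (jBd D i)) p q ≤ D := by
  have hR : ∀ i, (blkT (jBd D i)).R = D := fun i => pR_jBd hD i
  rcases p with _ | ⟨k, x⟩ <;> rcases q with _ | ⟨l, y⟩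
  · rw [gd_none_none]; exact Nat.zero_le _
  · rw [gd_none_some, hR]
  · rw [gd_some_none, hR]
  · by_cases h : k = l
    · subst h; rw [gd_same]; exact ((blkT (jBd D k)).d_le _ _).trans (hR k).le
    · rw [gd_ne _ h, hR, hR, max_self]

end

end Vale.Agent.N090B
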