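import Vale.Agent.N090B.Lower
import Mathlib.Topology.MetricSpace.Snowflaking

/-! Coarse retracts; the subdivided graph; snowflakes. -/

set_option linter.all false

namespace Vale.Agent.N090B

open Vale.Agent.P090 Vale.Agent.P090.H117 Finset

set_option maxSynthPendingDepth 3

noncomputable section

theorem coarse_min {M N : Type} [MetricSpace M] [MetricSpace N] (g : N → M)
    (hg : ∀ r : ℝ, ∃ s : ℝ, ∀ x y, dist x y ≤ r → dist (g x) (g y) ≤ s) {c : ℝ} (hc0 : 0 < c)
    (hc : ∀ z z' : N, z ≠ z' → c ≤ dist z z') {a : ℝ} (ha : 0 < a) :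
    ∃ K₀ : ℝ, ∀ K : ℝ, 0 < K → K₀ ≤ K →
      ∀ z z', min 1 (dist (g z) (g z') / K) ≤ a * dist z z' := by
  obtain ⟨s, hs⟩ := hg (1 / a)
  refine ⟨s / (a * c), fun K hK hK₀ z z' => ?_⟩
  rcases eq_or_ne z z' with rfl | hz
  · simp
  rcases le_total (dist z z') (1 / a) with h | h
  · refine (min_le_right _ _).trans ?_
    rw [div_le_iff₀ hK]
    rw [div_le_iff₀ (by positivity)] at hK₀
    have h1 := hs z z' h
    have h2 : a * c * K ≤ a * dist z z' * K := by
      have := hc z z' hz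
      gcongr
    linarith
  · refine (min_le_left _ _).trans ?_
    rw [div_le_iff₀ ha] at h
    linarith

/-- **Coarse retracts** of a space which is hard at all scales. -/
theorem fails_coarse {M N : Type} [MetricSpace M] [MetricSpace N] {o : M}
    (hH : ∀ K R : ℕ, 1 ≤ K → K ≤ R → Hard M o K R) (hN : UniformlyDiscrete N)
    (f : M → N) (g : N → M)
    (hf : ∀ r : ℝ, ∃ s : ℝ, ∀ x y, dist x y ≤ r → dist (f x) (f y) ≤ s)
    (hg : ∀ r : ℝ, ∃ s : ℝ, ∀ x y, dist x y ≤ r → dist (g x) (g y) ≤ s)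
    (C : ℝ) (hC : ∀ x, dist (g (f x)) x ≤ C) (o' : N) : Fails N o' := by
  obtain ⟨c, hc0, hc⟩ := hN
  intro lam₀ r₀
  set lam : ℝ := max lam₀ 0 with hlamdef
  set r : ℝ := max r₀ 0 with hrdef
  have hlam : 0 ≤ lam := le_max_right _ _
  have hr : 0 ≤ r := le_max_right _ _
  obtain ⟨s, hs⟩ := hf 1
  have hs0 : 0 ≤ s := dist_nonneg.trans (hs o o (by simp))
  have hC0 : 0 ≤ C := dist_nonneg.trans (hC o)
  set a : ℝ := 1 / (16 * (lam * s + 1)) with hadef
  have ha : 0 < a := by positivity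
  obtain ⟨K₀, hK₀⟩ := coarse_min g hg hc0 hc ha
  obtain ⟨K, hK⟩ := exists_nat_ge (max K₀ 1)
  have hK1 : (1 : ℝ) ≤ K := (le_max_right _ _).trans hK
  obtain ⟨κ, hκ⟩ := hf K
  have hκ0 : 0 ≤ κ := dist_nonneg.trans (hκ o o (by simp))
  set u : ℝ := lam * κ + r with hudef
  have hu : 0 ≤ u := by positivity
  set b : ℝ := 1 / (8 * (u + 1)) with hbdef
  have hb : 0 < b := by positivity
  obtain ⟨R₀, hR₀⟩ := coarse_min g hg hc0 hc hb
  obtain ⟨R, hR⟩ := exists_nat_ge (max R₀ (K + 8 * C + 8 + 16 * u / c))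
  have hR1 : K + 8 * C + 8 + 16 * u / c ≤ R := (le_max_right _ _).trans hR
  have huc : 0 ≤ 16 * u / c := by positivity
  have hR0 : (0 : ℝ) < R := by linarith
  obtain ⟨ρ, hρ⟩ := hf (K + R)
  obtain ⟨A, hA⟩ := key o' (K := K) (R := R) (by linarith) hR0
    (hH K R (by exact_mod_cast hK1) (by exact_mod_cast (show (K : ℝ) ≤ R by linarith))) f g
    a b c C κ s (ρ + dist (f o) o') ha.le hb.le hc0 hκ0 hs0
    (hK₀ K (by linarith) ((le_max_left _ _).trans hK))
    (hR₀ R hR0 ((le_max_left _ _).trans hR)) hc hC hκ hs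
    (fun x hx => (dist_triangle _ (f o) _).trans (add_le_add (hρ _ _ hx) le_rfl))
    (1 / (32 * (1 + 2 * a * u))) (by positivity)
  refine ⟨A, fun T hT hn => ?_⟩
  by_contra hcon
  push Not at hcon
  have h := hA lam r T hT (hn.trans (le_max_left _ _)) hr
    (fun z hz => (hcon z hz).trans (le_max_left _ _))
  rw [← hudef] at h
  have e1 : C / R ≤ 1 / 8 := by rw [div_le_iff₀ hR0]; linarith
  have e2 : b * u ≤ 1 / 8 := by
    rw [hbdef, one_div, inv_mul_eq_div, div_le_iff₀ (by positivity)]; linarith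
  have e3 : lam * (2 * a) * s ≤ 1 / 8 := by
    have : lam * (2 * a) * s = 2 * (lam * s) / (16 * (lam * s + 1)) := by rw [hadef]; ring
    rw [this, div_le_iff₀ (by positivity)]; linarith
  have e4 : 1 / (R : ℝ) ≤ 1 / 8 := one_div_le_one_div_of_le (by norm_num) (by linarith)
  have e5 : 2 / (R * c) * u ≤ 1 / 8 := by
    have : 2 / (R * c) * u = (16 * u / c) / (8 * R) := by field_simp; ring
    rw [this, div_le_iff₀ (by positivity)]; linarith
  have e6 : 4 * (1 / (32 * (1 + 2 * a * u))) * (1 + 2 * a * u) = 1 / 8 := by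
    field_simp; ring
  linarith

/-- Hardness passes to a larger space along a positive linear extension operator. -/
theorem Hard.extend {M V : Type} [MetricSpace M] [MetricSpace V] {o : M} {K R : ℝ}
    (hK : 0 < K) (hR : 0 < R) (h : Hard M o K R) (ι : M → V)
    (hι : ∀ x y, dist (ι x) (ι y) ≤ dist x y) (p q : V → M) (t : V → ℝ) (ht0 : ∀ v, 0 ≤ t v)
    (ht1 : ∀ v, t v ≤ 1) (hp : ∀ x, p (ι x) = x) (ht : ∀ x, t (ι x) = 0)
    (hlip : ∀ (φ : M → ℝ) (a : ℝ), 0 ≤ a → (∀ x y, |φ x - φ y| ≤ a * dist x y) → ∀ u v,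
      |((1 - t u) * φ (p u) + t u * φ (q u)) - ((1 - t v) * φ (p v) + t v * φ (q v))| ≤
        a * dist u v) : Hard V (ι o) K R := by
  classical
  intro β hβ M₁
  obtain ⟨A, hA, hS⟩ := h β hβ (M₁.image p ∪ M₁.image q)
  refine ⟨A.image ι, fun x hx => ?_, fun M₀ => ?_⟩
  · obtain ⟨y, hy, rfl⟩ := Finset.mem_image.1 hx
    exact (hι _ _).trans (hA y hy)
  obtain ⟨S⟩ := hS (M₀.image p ∪ M₀.image q)
  let E : (M → ℝ) → V → ℝ := fun φ v => (1 - t v) * φ (p v) + t v * φ (q v)
  have hlo : ∀ (φ : M → ℝ) (c : ℝ), (∀ x, c ≤ φ x) → ∀ v, c ≤ E φ v := by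
    intro φ c h v
    have h1 := mul_le_mul_of_nonneg_left (h (p v)) (sub_nonneg.2 (ht1 v))
    have h2 := mul_le_mul_of_nonneg_left (h (q v)) (ht0 v)
    simp only [E]
    linarith
  have hhi : ∀ (φ : M → ℝ) (c : ℝ), (∀ x, φ x ≤ c) → ∀ v, E φ v ≤ c := by
    intro φ c h v
    have h1 := mul_le_mul_of_nonneg_left (h (p v)) (sub_nonneg.2 (ht1 v))
    have h2 := mul_le_mul_of_nonneg_left (h (q v)) (ht0 v)
    simp only [E]
    linarith
  have habs : ∀ (φ : M → ℝ) (c : ℝ), (∀ x, |φ x| ≤ c) → ∀ v, |E φ v| ≤ c := fun φ c h v =>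
    abs_le.2 ⟨hlo φ _ (fun x => (abs_le.1 (h x)).1) v, hhi φ _ (fun x => (abs_le.1 (h x)).2) v⟩
  have hzero : ∀ (φ : M → ℝ) (B : Finset V), (∀ x ∈ B.image p ∪ B.image q, φ x = 0) →
      ∀ v ∈ B, E φ v = 0 := by
    intro φ B h v hv
    simp only [E]
    rw [h _ (Finset.mem_union_left _ (Finset.mem_image_of_mem p hv)),
      h _ (Finset.mem_union_right _ (Finset.mem_image_of_mem q hv))]
    ring
  have hrem : ∀ x v, E (S.chi x) v - 1 / 2 * ∑ i, E (S.th x i) v =
      E (fun z => S.chi x z - 1 / 2 * ∑ i, S.th x i z) v := by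
    intro x v
    simp only [E]
    rw [Finset.sum_add_distrib, ← Finset.mul_sum, ← Finset.mul_sum]
    ring
  exact ⟨{
    V := S.V
    act := S.act
    hact := S.hact
    pt := fun x => ι (S.pt x)
    fp := fun x => ι (S.fp x)
    fp_mem := fun x => Finset.mem_image_of_mem ι (S.fp_mem x)
    pf := fun x => (hι _ _).trans (S.pf x)
    step := fun i x => (hι _ _).trans (S.step i x)
    chi := fun x => E (S.chi x)
    th := fun x i => E (S.th x i)
    chi0 := fun x => hlo _ _ (S.chi0 x)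
    chi1 := fun x => hhi _ _ (S.chi1 x)
    chi_lip := fun x => hlip _ _ (by positivity) (S.chi_lip x)
    chi_fp := fun x => by simp only [E]; rw [ht, hp, S.chi_fp]; ring
    chi_out := fun x => hzero _ _ (S.chi_out x)
    th1 := fun x i => habs _ _ (S.th1 x i)
    th_lip := fun x i => hlip _ _ (by positivity) (S.th_lip x i)
    th_out := fun x i => hzero _ _ (S.th_out x i)
    rem0 := fun x v => by rw [hrem]; exact hlo _ _ (S.rem0 x) v
    rem1 := fun x v => by rw [hrem]; exact hhi _ _ (S.rem1 x) v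
    rem_out := fun x v hv => by rw [hrem]; exact hzero _ _ (S.rem_out x) v hv
    bad := S.bad
    anti := fun x i v hx hax => by
      refine le_trans (le_of_eq ?_) (habs (fun z => S.th x i z + S.th (S.act i x) (ng i) z) _
        (fun z => S.anti x i z hx hax) v)
      congr 1
      simp only [E]
      ring
    few := S.few }⟩

section Graph

variable {M : Type} [MetricSpace M] {nd : M → M → ℕ}

/-- first end point -/
def subP : Sub nd → M
  | Sub.pt x => x
  | Sub.mid x _ _ => x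

/-- second end point -/
def subQ : Sub nd → M
  | Sub.pt x => x
  | Sub.mid _ y _ => y

/-- position on the path -/
def subT : Sub nd → ℝ
  | Sub.pt _ => 0
  | Sub.mid x y i => ((i : ℕ) + 1 : ℝ) / nd x y

theorem itp_apply (o : M) (v : Sub nd) (ψ : Lip0 M o) :
    (itp o nd v : Lip0 M o →L[ℝ] ℝ) ψ = (1 - subT v) * ψ (subP v) + subT v * ψ (subQ v) := by
  rcases v with x | ⟨x, y, i⟩
  · simp [itp, subT, subP, subQ, deltaF]
  · have : (itp o nd (Sub.mid x y i) : Lip0 M o →L[ℝ] ℝ) ψ =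
        ψ x + (((i : ℕ) + 1 : ℝ) / nd x y) * (ψ y - ψ x) := rfl
    rw [this]
    simp only [subT, subP, subQ]
    ring

theorem hard_graph (hnd : ∀ x y : M, dist x y = nd x y) {o : M} (hG : (GS nd).Connected)
    {K R : ℝ} (hK : 0 < K) (hR : 0 < R) (h : Hard M o K R) :
    letI := graphMetric (GS nd) hG
    Hard (Sub nd) (Sub.pt o) K R := by
  let _ := graphMetric (GS nd) hG
  have h0 : ∀ x y : M, nd x y = 0 → x = y := by
    intro x y h
    have := hnd x y
    rw [h, Nat.cast_zero] at this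
    exact dist_eq_zero.1 this
  refine h.extend hK hR (fun x => (Sub.pt x : Sub nd)) (fun x y => ?_) subP subQ subT
    (fun v => ?_) (fun v => ?_) (fun _ => rfl) (fun _ => rfl) (fun φ a ha hφ u v => ?_)
  · obtain ⟨w, hw⟩ := exists_walk_inl h0 x y
    have h1 : (GS nd).dist (Sub.pt x) (Sub.pt y) ≤ nd x y :=
      (SimpleGraph.dist_le w).trans hw
    rw [hnd]
    show (((GS nd).dist (Sub.pt x) (Sub.pt y) : ℕ) : ℝ) ≤ _
    exact_mod_cast h1
  · rcases v with x | ⟨x, y, i⟩
    · exact le_rfl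
    · simp only [subT]; positivity
  · rcases v with x | ⟨x, y, i⟩
    · exact zero_le_one
    · simp only [subT]
      have := i.2
      refine div_le_one_of_le₀ ?_ (Nat.cast_nonneg _)
      exact_mod_cast (show (i : ℕ) + 1 ≤ nd x y by omega)
  · obtain ⟨w, hw⟩ := hG.exists_walk_length_eq_dist u v
    have h1 := itp_walk hnd o w
    let ψ : Lip0 M o := mkLip (fun x => φ x - φ o) a
      (fun x y => by rw [sub_sub_sub_cancel_right]; exact hφ x y) (sub_self _)
    have h2 : ‖ψ‖ ≤ a := norm_mkLip_le _ _ ha _ _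
    have h3 : ∀ x, ψ x = φ x - φ o := fun _ => rfl
    have h4 : ((1 - subT u) * φ (subP u) + subT u * φ (subQ u)) -
        ((1 - subT v) * φ (subP v) + subT v * φ (subQ v)) =
        ((itp o nd u - itp o nd v : ↥(LipSpan M o)) : Lip0 M o →L[ℝ] ℝ) ψ := by
      rw [AddSubgroupClass.coe_sub, ContinuousLinearMap.sub_apply, itp_apply, itp_apply]
      simp only [h3]
      ring
    rw [h4, ← Real.norm_eq_abs]
    refine (ContinuousLinearMap.le_opNorm _ _).trans ?_
    rw [mul_comm a]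
    show _ ≤ (((GS nd).dist u v : ℕ) : ℝ) * a
    rw [← hw]
    exact mul_le_mul h1 h2 (norm_nonneg _) (Nat.cast_nonneg _)

end Graph

/-- A countable connected graph which is hard at all scales. -/
theorem exists_hard_graph : ∃ (V : Type) (_ : MetricSpace V) (G : SimpleGraph V) (o : V),
    Countable V ∧ G.Connected ∧ (∀ x y : V, dist x y = G.dist x y) ∧
      ∀ K R : ℕ, 1 ≤ K → K ≤ R → Hard V o K R := by
  let B : ℕ → Blk := fun i => blkT (jAll i)
  have h0 : ∀ x y : MT jAll, gd B x y = 0 → x = y := fun x y h => gd_eq_zero B h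
  have : Nonempty (MT jAll) := ⟨Glue.base B⟩
  have hG : (GS (gd B)).Connected := connected h0
  have hc : Countable (Sub (gd B)) := by
    have : Countable (MT jAll) := inferInstance
    exact (Sub.code_injective (gd B)).countable
  refine ⟨Sub (gd B), graphMetric _ hG, GS (gd B), Sub.pt (Glue.base B), hc, hG,
    fun _ _ => rfl, fun K R hK hKR => ?_⟩
  exact hard_graph (fun x y => glue_dist B x y) hG (by exact_mod_cast hK)
    (by exact_mod_cast hK.trans hKR) (hard_all K R hK hKR)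

open Metric in
theorem fails_snowflake {M : Type} [MetricSpace M] {o : M}
    (hH : ∀ K R : ℕ, 1 ≤ K → K ≤ R → Hard M o K R) (h1 : ∀ x y : M, x ≠ y → 1 ≤ dist x y)
    {α : ℝ} (hα₀ : 0 < α) (hα₁ : α ≤ 1) (o' : Snowflaking M α hα₀ hα₁) :
    Fails (Snowflaking M α hα₀ hα₁) o' := by
  have hd : ∀ x y : Snowflaking M α hα₀ hα₁,
      dist x y = dist (Snowflaking.ofSnowflaking x) (Snowflaking.ofSnowflaking y) ^ α :=
    fun _ _ => rfl
  refine fails_coarse hH ⟨1, one_pos, fun x y hxy => ?_⟩ Snowflaking.toSnowflaking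
    Snowflaking.ofSnowflaking (fun r => ⟨(max r 0) ^ α, fun x y h => ?_⟩)
    (fun r => ⟨(max r 0) ^ α⁻¹, fun x y h => ?_⟩) 0 (fun x => by simp) o'
  · rw [hd]
    exact Real.one_le_rpow (h1 _ _ (Snowflaking.ofSnowflaking.injective.ne hxy)) hα₀.le
  · rw [Snowflaking.dist_toSnowflaking_toSnowflaking]
    exact Real.rpow_le_rpow dist_nonneg (h.trans (le_max_left _ _)) hα₀.le
  · rw [Snowflaking.dist_ofSnowflaking_ofSnowflaking]
    exact Real.rpow_le_rpow dist_nonneg (h.trans (le_max_left _ _)) (inv_nonneg.2 hα₀.le)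

end

end Vale.Agent.N090B
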