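import Vale.Agent.P090.Defs
import Vale.Agent.P090.H117.Defs

/-! Abbreviations: approximation properties of the Lipschitz-free space `F(M)`. -/

namespace Vale.Agent.N090B

open Vale.Agent.P090

/-- `F(M)` has the `lam`-BAP. -/
def FBW (lam : ℝ) (M : Type) [MetricSpace M] (o : M) : Prop := HasBAPWith lam (LipFree M o)

/-- `F(M)` has the BAP. -/
def FB (M : Type) [MetricSpace M] (o : M) : Prop := HasBAP (LipFree M o)

/-- `F(M)` has the bounded approximation property for compact operators. -/
def FC (M : Type) [MetricSpace M] (o : M) : Prop := H117.HasCompactBAP (LipFree M o)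

end Vale.Agent.N090B
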