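import Vale.Agent.P090.H117.Graph

/-! The main inequality with free constants, and the test functions of one block. -/

namespace Vale.Agent.N090B

open Vale.Agent.P090 Finset

noncomputable section

/-- The main inequality, for test functions given as elements of `Lip₀`. -/
theorem main_gen {N V S : Type} [MetricSpace N] [Fintype V] [Nonempty V] [Fintype S] {o : N}
    (L : N → Lip0 N o →ₗ[ℝ] ℝ) (lam ε η : ℝ) (hlam : 0 ≤ lam) (hε : 0 ≤ ε)
    (hL : ∀ m m' f, |L m f - L m' f| ≤ lam * ‖f‖ * dist m m')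
    (κ s a b e e' γ β : ℝ) (hκ : 0 ≤ κ) (hs : 0 ≤ s) (ha : 0 ≤ a) (he : 0 ≤ e) (he' : 0 ≤ e')
    (act : S → V → V) (inv : S → S) (hact : ∀ i x, act (inv i) (act i x) = x)
    (hinv : ∀ i, inv (inv i) = i) (hS : Fintype.card S = 4)
    (pt fp : V → N) (hpf : ∀ x, dist (pt x) (fp x) ≤ κ)
    (hstep : ∀ i x, dist (pt x) (pt (act i x)) ≤ s)
    (hLF : ∀ x f, |L (fp x) f - f (fp x)| ≤ ε * ‖f‖)
    (X : V → Lip0 N o) (Θ : V → S → Lip0 N o)
    (hXn : ∀ x, ‖X x‖ ≤ b) (hX1 : ∀ x, 1 - γ ≤ X x (fp x))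
    (hΘn : ∀ x i, ‖Θ x i‖ ≤ a) (hΘ1 : ∀ x i, Θ x i (fp x) ≤ 1)
    (bad : V → Prop)
    (hψn : ∀ x i, ¬ bad x → ¬ bad (act i x) → ‖Θ x i + Θ (act i x) (inv i)‖ ≤ e')
    (hψ1 : ∀ x i, ¬ bad x → ¬ bad (act i x) → (Θ x i + Θ (act i x) (inv i)) (fp (act i x)) ≤ e)
    (htail : ∀ x, |L (pt x) (X x - (1 / 2 : ℝ) • ∑ i, Θ x i)| ≤ η)
    (hbad : (Nat.card {v // bad v} : ℝ) ≤ β * Fintype.card V) :
    1 - γ - b * (lam * κ + ε) - η ≤
      lam * a * s + e + e' * (lam * κ + ε) + 4 * β * (1 + a * (lam * κ + ε)) := by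
  classical
  set u : ℝ := lam * κ + ε with hu
  have hpos : 0 ≤ u := by positivity
  have hstar : ∀ x f, |L (pt x) f - f (fp x)| ≤ ‖f‖ * u := by
    intro x f
    have h1 := hL (pt x) (fp x) f
    have h2 := hLF x f
    have h3 : lam * ‖f‖ * dist (pt x) (fp x) ≤ lam * ‖f‖ * κ :=
      mul_le_mul_of_nonneg_left (hpf x) (mul_nonneg hlam (norm_nonneg _))
    calc |L (pt x) f - f (fp x)|
        = |(L (pt x) f - L (fp x) f) + (L (fp x) f - f (fp x))| := by congr 1; ring
      _ ≤ |L (pt x) f - L (fp x) f| + |L (fp x) f - f (fp x)| := abs_add_le _ _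
      _ ≤ lam * ‖f‖ * κ + ε * ‖f‖ := by linarith only [h1, h2, h3]
      _ = ‖f‖ * u := by rw [hu]; ring
  have hlow : ∀ x, 4 * (1 - γ - b * u - η) ≤ 2 * ∑ i, L (pt x) (Θ x i) := by
    intro x
    have h1 := htail x
    rw [map_sub, map_smul, map_sum] at h1
    have h2 := hstar x (X x)
    have h3 := hX1 x
    have h4 : ‖X x‖ * u ≤ b * u := mul_le_mul_of_nonneg_right (hXn x) hpos
    have h5 := abs_le.1 h1
    have h6 := abs_le.1 h2
    have h7 : ((1 / 2 : ℝ) • ∑ i, L (pt x) (Θ x i)) = (1 / 2) * ∑ i, L (pt x) (Θ x i) := rfl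
    rw [h7] at h5
    linarith only [h3, h4, h5, h6]
  set B : V → S → ℝ := fun x i => L (pt x) (Θ x i) + L (pt (act i x)) (Θ (act i x) (inv i))
    with hB
  set c1 : ℝ := lam * a * s + e + e' * u with hc1
  set c2 : ℝ := 2 * (1 + a * u) with hc2
  have hp1 : 0 ≤ c1 := by positivity
  have hp2 : 0 ≤ c2 := by positivity
  have hgood : ∀ x i, ¬ bad x → ¬ bad (act i x) → B x i ≤ c1 := by
    intro x i hx hax
    have h1 := hL (pt x) (pt (act i x)) (Θ x i)
    have h2 : lam * ‖Θ x i‖ * dist (pt x) (pt (act i x)) ≤ lam * a * s := by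
      have := hΘn x i
      have := hstep i x
      gcongr
    have h3 := hstar (act i x) (Θ x i + Θ (act i x) (inv i))
    have h4 : ‖Θ x i + Θ (act i x) (inv i)‖ * u ≤ e' * u :=
      mul_le_mul_of_nonneg_right (hψn x i hx hax) hpos
    have h5 := hψ1 x i hx hax
    have h6 : L (pt (act i x)) (Θ x i + Θ (act i x) (inv i)) = L (pt (act i x)) (Θ x i)
        + L (pt (act i x)) (Θ (act i x) (inv i)) := map_add _ _ _
    have h7 := (abs_le.1 h1).2
    have h8 := (abs_le.1 h3).2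
    simp only [hB, hc1]
    linarith only [h2, h4, h5, h6, h7, h8]
  have hΘb : ∀ x i, L (pt x) (Θ x i) ≤ 1 + a * u := by
    intro x i
    have h1 := (abs_le.1 (hstar x (Θ x i))).2
    have h2 := hΘ1 x i
    have h3 : ‖Θ x i‖ * u ≤ a * u := mul_le_mul_of_nonneg_right (hΘn x i) hpos
    linarith only [h1, h2, h3]
  have hall : ∀ x i, B x i ≤ c2 := by
    intro x i
    have h1 := hΘb x i
    have h2 := hΘb (act i x) (inv i)
    simp only [hB, hc2]
    linarith only [h1, h2]
  have hb : ∀ x i, B x i ≤ c1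
      + ((if bad x then c2 else 0) + (if bad (act i x) then c2 else 0)) := by
    intro x i
    by_cases h1 : bad x
    · rw [if_pos h1]
      have := hall x i
      split_ifs <;> linarith only [hp1, hp2, this]
    · by_cases h2 : bad (act i x)
      · rw [if_neg h1, if_pos h2]
        have := hall x i
        linarith only [hp1, this]
      · rw [if_neg h1, if_neg h2]
        have := hgood x i h1 h2
        linarith only [this]
  have hinvolutive : Function.Involutive (fun p : V × S => (act p.2 p.1, inv p.2)) := by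
    rintro ⟨x, i⟩
    simp [hact, hinv]
  have hre : ∀ f : V × S → ℝ, ∑ p : V × S, f (act p.2 p.1, inv p.2) = ∑ p : V × S, f p :=
    fun f => Equiv.sum_comp hinvolutive.toPerm f
  have hsum : ∑ x, (2 * ∑ i, L (pt x) (Θ x i)) = ∑ p : V × S, B p.1 p.2 := by
    have h1 : ∑ p : V × S, B p.1 p.2 = ∑ p : V × S, L (pt p.1) (Θ p.1 p.2)
        + ∑ p : V × S, L (pt (act p.2 p.1)) (Θ (act p.2 p.1) (inv p.2)) := by
      rw [← sum_add_distrib]
    have h2 := hre (fun p => L (pt p.1) (Θ p.1 p.2))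
    simp only at h2
    rw [h1, h2, ← two_mul, Fintype.sum_prod_type, mul_sum]
  have hbadsum : ∑ p : V × S, (if bad (act p.2 p.1) then c2 else 0)
      = ∑ p : V × S, (if bad p.1 then c2 else 0) :=
    hre (fun p => if bad p.1 then c2 else 0)
  have hbs : ∑ p : V × S, (if bad p.1 then c2 else 0)
      = 4 * ((univ.filter bad).card : ℝ) * c2 := by
    rw [Fintype.sum_prod_type]
    have h1 : ∀ x : V, ∑ _a : S, (if bad x then c2 else 0)
        = 4 * (if bad x then c2 else 0) := by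
      intro x
      rw [sum_const, card_univ, hS, nsmul_eq_mul]
      norm_num
    refine (sum_congr rfl fun x _ => h1 x).trans ?_
    rw [← mul_sum, ← sum_filter, sum_const, nsmul_eq_mul]
    ring
  have hc : ((univ.filter bad).card : ℝ) = (Nat.card {v // bad v} : ℝ) := by
    rw [Nat.card_eq_fintype_card, Fintype.card_subtype]
  have hn : (0 : ℝ) < Fintype.card V := by exact_mod_cast Fintype.card_pos
  have key : 4 * (Fintype.card V : ℝ) * (1 - γ - b * u - η) ≤
      4 * (Fintype.card V : ℝ) * (c1 + 2 * β * c2) := by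
    calc 4 * (Fintype.card V : ℝ) * (1 - γ - b * u - η)
        = ∑ _x : V, 4 * (1 - γ - b * u - η) := by
          rw [sum_const, card_univ, nsmul_eq_mul]; ring
      _ ≤ ∑ x, (2 * ∑ i, L (pt x) (Θ x i)) := sum_le_sum fun x _ => hlow x
      _ = ∑ p : V × S, B p.1 p.2 := hsum
      _ ≤ ∑ p : V × S, (c1
        + ((if bad p.1 then c2 else 0) + (if bad (act p.2 p.1) then c2 else 0))) :=
          sum_le_sum fun p _ => hb p.1 p.2
      _ = 4 * (Fintype.card V : ℝ) * c1 + 8 * (Nat.card {v // bad v} : ℝ) * c2 := by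
          rw [sum_add_distrib (f := fun _ : V × S => c1),
            sum_add_distrib (f := fun p : V × S => if bad p.1 then c2 else 0),
            hbadsum, hbs, sum_const, card_univ, Fintype.card_prod, hS, nsmul_eq_mul, hc]
          push_cast
          ring
      _ ≤ 4 * (Fintype.card V : ℝ) * c1 + 8 * (β * Fintype.card V) * c2 := by gcongr
      _ = _ := by ring
  have h1 := le_of_mul_le_mul_left key (by positivity)
  rw [hc1, hc2] at h1
  linarith only [h1]

/-- A system of test functions on `M` with parameters `K`, `R`, `β`, anchored in `A`; all functions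
vanish on `M₁`, the remainders vanish on `M₀`. -/
structure Sys (M : Type) [MetricSpace M] (K R β : ℝ) (A M₁ M₀ : Finset M) where
  V : Type
  [fin : Fintype V]
  [ne : Nonempty V]
  act : AA × Bool → V → V
  hact : ∀ i x, act (ng i) (act i x) = x
  pt : V → M
  fp : V → M
  fp_mem : ∀ x, fp x ∈ A
  pf : ∀ x, dist (pt x) (fp x) ≤ K
  step : ∀ i x, dist (pt x) (pt (act i x)) ≤ 1
  chi : V → M → ℝ
  th : V → AA × Bool → M → ℝ
  chi0 : ∀ x z, 0 ≤ chi x z
  chi1 : ∀ x z, chi x z ≤ 1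
  chi_lip : ∀ x z z', |chi x z - chi x z'| ≤ 1 / R * dist z z'
  chi_fp : ∀ x, chi x (fp x) = 1
  chi_out : ∀ x, ∀ z ∈ M₁, chi x z = 0
  th1 : ∀ x i z, |th x i z| ≤ 1
  th_lip : ∀ x i z z', |th x i z - th x i z'| ≤ 2 / K * dist z z'
  th_out : ∀ x i, ∀ z ∈ M₁, th x i z = 0
  rem0 : ∀ x z, 0 ≤ chi x z - 1 / 2 * ∑ i, th x i z
  rem1 : ∀ x z, chi x z - 1 / 2 * ∑ i, th x i z ≤ 1
  rem_out : ∀ x, ∀ z ∈ M₀, chi x z - 1 / 2 * ∑ i, th x i z = 0
  bad : V → Prop
  anti : ∀ x i z, ¬ bad x → ¬ bad (act i x) → |th x i z + th (act i x) (ng i) z| ≤ 1 / R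
  few : (Nat.card {v // bad v} : ℝ) ≤ β * Fintype.card V

attribute [instance] Sys.fin Sys.ne

/-- `M` carries systems of test functions at the scales `K`, `R`, within distance `R` of `o`. -/
def Hard (M : Type) [MetricSpace M] (o : M) (K R : ℝ) : Prop :=
  ∀ β > 0, ∀ M₁ : Finset M, ∃ A : Finset M, (∀ x ∈ A, dist x o ≤ R) ∧
    ∀ M₀ : Finset M, Nonempty (Sys M K R β A M₁ M₀)

end

end Vale.Agent.N090B
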