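import Vale.Agent.N090B.Block

/-! Transfer of the test functions along a pair of maps; gauges; coarse retracts. -/

set_option linter.all false

namespace Vale.Agent.N090B

open Vale.Agent.P090 Vale.Agent.P090.H117 Finset

set_option maxSynthPendingDepth 3

noncomputable section

theorem abs_le_mul_min {u w c d : ℝ} (h1 : |u| ≤ c) (h2 : |u| ≤ c * d) (h3 : min 1 d ≤ w)
    (hc : 0 ≤ c) : |u| ≤ c * w := by
  refine le_trans ?_ (mul_le_mul_of_nonneg_left h3 hc)
  rcases min_choice 1 d with h | h <;> rw [h]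
  · rwa [mul_one]
  · exact h2

/-- The main inequality after transfer along `f : M → N`, `g : N → M`. -/
theorem key {M N : Type} [MetricSpace M] [MetricSpace N] {o : M} (o' : N) {K R : ℝ}
    (hK : 0 < K) (hR : 0 < R) (hH : Hard M o K R) (f : M → N) (g : N → M)
    (a b c C κ s ρ : ℝ) (ha0 : 0 ≤ a) (hb0 : 0 ≤ b) (hc0 : 0 < c) (hκ0 : 0 ≤ κ) (hs0 : 0 ≤ s)
    (ha : ∀ z z', min 1 (dist (g z) (g z') / K) ≤ a * dist z z')
    (hb : ∀ z z', min 1 (dist (g z) (g z') / R) ≤ b * dist z z')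
    (hc : ∀ z z' : N, z ≠ z' → c ≤ dist z z') (hC : ∀ x, dist (g (f x)) x ≤ C)
    (hκ : ∀ x y, dist x y ≤ K → dist (f x) (f y) ≤ κ)
    (hs : ∀ x y, dist x y ≤ 1 → dist (f x) (f y) ≤ s)
    (hρ : ∀ x, dist x o ≤ K + R → dist (f x) o' ≤ ρ) (β : ℝ) (hβ : 0 < β) :
    ∃ A : Finset N, ∀ (lam ε : ℝ) (T : ↥(LipSpan N o') →L[ℝ] ↥(LipSpan N o')),
      IsCompactOperator T → ‖T‖ ≤ lam → 0 ≤ ε →
      (∀ z ∈ A, ‖T (deltaF o' z) - deltaF o' z‖ ≤ ε) →
      1 - C / R - b * (lam * κ + ε) ≤ lam * (2 * a) * s + 1 / R + 2 / (R * c) * (lam * κ + ε) +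
        4 * β * (1 + 2 * a * (lam * κ + ε)) := by
  classical
  obtain ⟨A, hA, hS⟩ := hH β hβ {g o'}
  refine ⟨A.image f, fun lam ε T hT hn hε hc' => ?_⟩
  have hlam : 0 ≤ lam := (norm_nonneg T).trans hn
  obtain ⟨L, hL1, hL2, hL3⟩ := fa_compact hT hn (A.image f) hc'
  refine le_of_forall_pos_le_add fun η hη => ?_
  obtain ⟨M₀, hM₀⟩ := hL3 ρ (η * c) (by positivity)
  obtain ⟨S⟩ := hS (M₀.image g)
  -- bounded functions are Lipschitz on `N`
  have hbd : ∀ (φ : N → ℝ) (r : ℝ), 0 ≤ r → (∀ z z', |φ z - φ z'| ≤ r) →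
      ∀ z z', |φ z - φ z'| ≤ r / c * dist z z' := by
    intro φ r hr h z z'
    rcases eq_or_ne z z' with rfl | hz
    · simp
    · refine (h z z').trans ?_
      rw [div_mul_eq_mul_div, le_div_iff₀ hc0]
      exact mul_le_mul_of_nonneg_left (hc z z' hz) hr
  have hXl : ∀ x z z', |S.chi x (g z) - S.chi x (g z')| ≤ b * dist z z' := by
    intro x z z'
    have h1 : |S.chi x (g z) - S.chi x (g z')| ≤ 1 := by
      have := S.chi0 x (g z); have := S.chi0 x (g z')
      have := S.chi1 x (g z); have := S.chi1 x (g z')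
      rw [abs_le]; constructor <;> linarith
    have h2 := abs_le_mul_min h1 (d := dist (g z) (g z') / R)
      ((S.chi_lip x _ _).trans (le_of_eq (by ring))) (hb z z') zero_le_one
    rwa [one_mul] at h2
  have hΘl : ∀ x i z z', |S.th x i (g z) - S.th x i (g z')| ≤ 2 * a * dist z z' := by
    intro x i z z'
    have h1 : |S.th x i (g z) - S.th x i (g z')| ≤ 2 := by
      have h3 := abs_le.1 (S.th1 x i (g z)); have h4 := abs_le.1 (S.th1 x i (g z'))
      rw [abs_le]; constructor <;> linarith [h3.1, h3.2, h4.1, h4.2]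
    have h2 := abs_le_mul_min h1 (d := dist (g z) (g z') / K)
      ((S.th_lip x i _ _).trans (le_of_eq (by ring))) (ha z z') zero_le_two
    rwa [← mul_assoc] at h2
  let X : S.V → Lip0 N o' := fun x => mkLip (fun z => S.chi x (g z)) b (hXl x)
    (S.chi_out x _ (Finset.mem_singleton_self _))
  let Θ : S.V → AA × Bool → Lip0 N o' := fun x i => mkLip (fun z => S.th x i (g z)) (2 * a)
    (hΘl x i) (S.th_out x i _ (Finset.mem_singleton_self _))
  have hXa : ∀ x z, X x z = S.chi x (g z) := fun _ _ => rfl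
  have hΘa : ∀ x i z, Θ x i z = S.th x i (g z) := fun _ _ _ => rfl
  have hmain := main_gen L lam ε η hlam hε hL1 κ s (2 * a) b (1 / R) (2 / (R * c)) (C / R) β
    hκ0 hs0 (by positivity) (by positivity) (by positivity) S.act ng S.hact ng_ng (by simp)
    (fun x => f (S.pt x)) (fun x => f (S.fp x)) (fun x => hκ _ _ (S.pf x))
    (fun i x => hs _ _ (S.step i x))
    (fun x φ => hL2 _ (Finset.mem_image_of_mem f (S.fp_mem x)) φ) X Θ
    (fun x => norm_mkLip_le _ _ hb0 _ _)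
    (by
      intro x
      rw [hXa]
      have h1 := abs_le.1 (S.chi_lip x (g (f (S.fp x))) (S.fp x))
      have h2 : 1 / R * dist (g (f (S.fp x))) (S.fp x) ≤ C / R := by
        rw [one_div, inv_mul_eq_div]
        exact div_le_div_of_nonneg_right (hC _) hR.le
      rw [S.chi_fp] at h1
      linarith [h1.1])
    (fun x i => norm_mkLip_le _ _ (by positivity) _ _)
    (fun x i => (le_abs_self _).trans (S.th1 x i _)) S.bad
    (by
      intro x i hx hax
      refine Lip0.norm_le (by positivity) fun z z' => ?_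
      have h1 := hbd (fun z => S.th x i (g z) + S.th (S.act i x) (ng i) (g z)) (2 / R)
        (by positivity) (fun z z' => by
          have h3 := abs_le.1 (S.anti x i (g z) hx hax)
          have h4 := abs_le.1 (S.anti x i (g z') hx hax)
          have h5 : 2 / R = 1 / R + 1 / R := by ring
          rw [abs_le]; constructor <;> linarith [h3.1, h3.2, h4.1, h4.2]) z z'
      rw [div_div] at h1
      exact h1)
    (fun x i hx hax => (le_abs_self _).trans (S.anti x i _ hx hax))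
    (by
      intro x
      have hval : ∀ z, (X x - (1 / 2 : ℝ) • ∑ i, Θ x i) z =
          S.chi x (g z) - 1 / 2 * ∑ i, S.th x i (g z) := by
        intro z
        rw [Lip0.sub_apply, Lip0.smul_apply, lip0_sum_apply]
        rfl
      have h1 : dist (f (S.pt x)) o' ≤ ρ := hρ _ ((dist_triangle _ (S.fp x) _).trans
        (add_le_add (S.pf x) (hA _ (S.fp_mem x))))
      have h2 := hM₀ _ h1 (X x - (1 / 2 : ℝ) • ∑ i, Θ x i) (fun z hz => by
        rw [hval]; exact S.rem_out x _ (Finset.mem_image_of_mem g hz))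
      have h3 : ‖X x - (1 / 2 : ℝ) • ∑ i, Θ x i‖ ≤ 1 / c := by
        refine Lip0.norm_le (by positivity) fun z z' => ?_
        rw [hval, hval]
        exact hbd (fun z => S.chi x (g z) - 1 / 2 * ∑ i, S.th x i (g z)) 1 zero_le_one
          (fun z z' => by
            have := S.rem0 x (g z); have := S.rem0 x (g z')
            have := S.rem1 x (g z); have := S.rem1 x (g z')
            rw [abs_le]; constructor <;> linarith) z z'
      refine h2.trans ((mul_le_mul_of_nonneg_left h3 (by positivity)).trans (le_of_eq ?_))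
      field_simp)
    S.few
  linarith only [hmain]

/-- An operator given by the `lam`-BAP. -/
theorem exists_op {N : Type} [MetricSpace N] {o : N} {lam : ℝ}
    (h : HasBAPWith lam (LipFree N o)) (A : Finset N) {ε : ℝ} (hε : 0 < ε) :
    ∃ T : ↥(LipSpan N o) →L[ℝ] ↥(LipSpan N o), IsCompactOperator T ∧ ‖T‖ ≤ lam ∧
      ∀ z ∈ A, ‖T (deltaF o z) - deltaF o z‖ ≤ ε := by
  obtain ⟨T, hT, hn, hc⟩ := hasBAPWith_lipFree_iff.1 h (deltaF o '' (A : Set N))
    ((A.finite_toSet.image _).isCompact) ε hε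
  refine ⟨T, ?_, hn, fun z hz => (hc _ ⟨z, hz, rfl⟩).le⟩
  have : LocallyCompactSpace (LinearMap.range (T : ↥(LipSpan N o) →ₗ[ℝ] ↥(LipSpan N o))) := by
    have := hT
    have : ProperSpace (LinearMap.range (T : ↥(LipSpan N o) →ₗ[ℝ] ↥(LipSpan N o))) :=
      FiniteDimensional.proper ℝ _
    infer_instance
  have h1 := isCompactOperator_of_locallyCompactSpace_dom
    (T.codRestrict (LinearMap.range (T : ↥(LipSpan N o) →ₗ[ℝ] ↥(LipSpan N o))) fun x => ⟨x, rfl⟩)
  exact IsCompactOperator.clm_comp h1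
    (LinearMap.range (T : ↥(LipSpan N o) →ₗ[ℝ] ↥(LipSpan N o))).subtypeL

theorem not_bap_of_fails {N : Type} [MetricSpace N] {o : N} (h : Fails N o) :
    ¬ P090.HasBAP (LipFree N o) := by
  rintro ⟨lam, -, hl⟩
  obtain ⟨A, hA⟩ := h lam 1
  obtain ⟨T, hT, hn, hc⟩ := exists_op hl A one_pos
  obtain ⟨x, hx, hlt⟩ := hA T hT hn
  exact absurd (hc x hx) (not_le.2 hlt)

section Gauge

variable {ω : ℝ → ℝ}

theorem gauge_ge (h1 : ConcaveOn ℝ (Set.Ici 0) ω) (h0 : ω 0 = 0) {d K : ℝ} (hd : 0 ≤ d)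
    (hK : 0 < K) (hdK : d ≤ K) : d / K * ω K ≤ ω d := by
  have h2 := h1.2 (Set.mem_Ici.2 le_rfl) (Set.mem_Ici.2 hK.le)
    (show 0 ≤ 1 - d / K by rw [sub_nonneg, div_le_one hK]; exact hdK)
    (show 0 ≤ d / K by positivity) (by ring)
  simp only [smul_eq_mul, mul_zero, zero_add, h0] at h2
  rwa [div_mul_cancel₀ _ hK.ne'] at h2

theorem gauge_min (h1 : ConcaveOn ℝ (Set.Ici 0) ω) (h2 : MonotoneOn ω (Set.Ici 0)) (h0 : ω 0 = 0)
    {d K : ℝ} (hd : 0 ≤ d) (hK : 0 < K) (hω : 0 < ω K) : min 1 (d / K) ≤ 1 / ω K * ω d := by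
  rw [one_div, inv_mul_eq_div, le_div_iff₀ hω]
  rcases le_total d K with h | h
  · exact (mul_le_mul_of_nonneg_right (min_le_right _ _) hω.le).trans (gauge_ge h1 h0 hd hK h)
  · refine (mul_le_mul_of_nonneg_right (min_le_left _ _) hω.le).trans ?_
    rw [one_mul]
    exact h2 (Set.mem_Ici.2 hK.le) (Set.mem_Ici.2 hd) h

theorem gauge_step (h1 : ConcaveOn ℝ (Set.Ici 0) ω) (h0 : ω 0 = 0) (h3 : ω 1 = 1) (n : ℕ) :
    ω (n + 1) ≤ ω n + 1 := by
  rcases Nat.eq_zero_or_pos n with rfl | hn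
  · simp [h0, h3]
  have hn1 : (1 : ℝ) ≤ n := by exact_mod_cast hn
  have h4 := gauge_ge h1 h0 (d := n) (K := n + 1) (by linarith) (by linarith) (by linarith)
  have h5 := gauge_ge h1 h0 (d := 1) (K := n + 1) (by linarith) (by linarith) (by linarith)
  have h6 : ω (n + 1) = n / (n + 1) * ω (n + 1) + 1 / (n + 1) * ω (n + 1) := by
    field_simp
  linarith

theorem gauge_numeric {u κ lam D : ℝ} (hu : 1 ≤ u) (hκ1 : 4 / 5 * u ≤ κ) (hκ2 : κ ≤ 4 / 5 * u + 1)
    (hD : u ^ 2 ≤ D) (hlam : 0 ≤ lam)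
    (h : 1 - 1 / u ^ 2 * (lam * κ) ≤ lam * (2 * (1 / κ)) + 1 / D + 2 / D * (lam * κ)) :
    u / 5 - 1 < lam := by
  have hu0 : 0 < u := by linarith
  have hκ0 : 0 < κ := by linarith
  have hD0 : 0 < D := by nlinarith
  have e1 : 1 / D ≤ 1 / u ^ 2 := one_div_le_one_div_of_le (by positivity) hD
  have e2 : 2 / D * (lam * κ) ≤ 2 / u ^ 2 * (lam * κ) := by gcongr
  have e3 : lam * (2 * (1 / κ)) ≤ lam * (2 * (1 / (4 / 5 * u))) := by gcongr
  have e4 : lam * κ ≤ lam * (4 / 5 * u + 1) := by gcongr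
  have e5 : 3 / u ^ 2 * (lam * κ) ≤ 3 / u ^ 2 * (lam * (4 / 5 * u + 1)) := by gcongr
  have e6 : 1 ≤ lam * (2 * (1 / (4 / 5 * u))) + 1 / u ^ 2 +
      3 / u ^ 2 * (lam * (4 / 5 * u + 1)) := by
    have : 3 / u ^ 2 * (lam * κ) = 1 / u ^ 2 * (lam * κ) + 2 / u ^ 2 * (lam * κ) := by ring
    linarith
  have e7 : lam * (2 * (1 / (4 / 5 * u))) + 1 / u ^ 2 + 3 / u ^ 2 * (lam * (4 / 5 * u + 1)) =
      (lam * (49 / 10 * u + 3) + 1) / u ^ 2 := by
    field_simp
    ring
  rw [e7, le_div_iff₀ (by positivity)] at e6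
  by_contra hcon
  push Not at hcon
  have e8 : lam * (49 / 10 * u + 3) ≤ (u / 5 - 1) * (49 / 10 * u + 3) := by gcongr
  nlinarith

/-- **Lower bound**, for every gauge. -/
theorem gauge_lower {D : ℕ} (hD : 1 ≤ D) (h1 : ConcaveOn ℝ (Set.Ici 0) ω)
    (h2 : MonotoneOn ω (Set.Ici 0)) (h0 : ω 0 = 0) (h3 : ω 1 = 1) {N : Type} [MetricSpace N]
    (e : MT (jBd D) ≃ N) (he : ∀ x y, dist (e x) (e y) = ω (dist x y)) (o' : N) :
    ¬ HasBAPWith (√(ω D) / 5 - 1) (LipFree N o') := by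
  classical
  intro hB
  have hD1 : (1 : ℝ) ≤ D := by exact_mod_cast hD
  have hω1 : ∀ d : ℝ, 1 ≤ d → 1 ≤ ω d := fun d hd => by
    rw [← h3]; exact h2 (Set.mem_Ici.2 zero_le_one) (Set.mem_Ici.2 (by linarith)) (h3 ▸ hd)
  have hωD : 1 ≤ ω D := hω1 _ hD1
  set u : ℝ := √(ω D) with hu
  have hu2 : u ^ 2 = ω D := Real.sq_sqrt (by linarith)
  have hu1 : 1 ≤ u := Real.one_le_sqrt.2 hωD
  have hωle : ω D ≤ D := by
    have := gauge_ge h1 h0 (d := 1) (K := D) zero_le_one (by linarith) hD1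
    rw [h3, one_div, inv_mul_eq_div, div_le_one (by linarith)] at this
    exact this
  have hex : ∃ n : ℕ, 4 / 5 * u ≤ ω n := ⟨D, by nlinarith⟩
  set K : ℕ := Nat.find hex with hKdef
  have hK1 : 4 / 5 * u ≤ ω K := Nat.find_spec hex
  have hKD : K ≤ D := Nat.find_min' hex (by nlinarith)
  have hK0 : 1 ≤ K := by
    rcases Nat.eq_zero_or_pos K with h | h
    · rw [h, Nat.cast_zero, h0] at hK1; linarith
    · exact h
  have hK2 : ω K ≤ 4 / 5 * u + 1 := by
    obtain ⟨n, hn⟩ : ∃ n, K = n + 1 := ⟨K - 1, by omega⟩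
    have h4 := Nat.find_min hex (show n < Nat.find hex by omega)
    have h5 := gauge_step h1 h0 h3 n
    rw [hn]
    push_cast
    linarith
  have hK1' : (1 : ℝ) ≤ K := by exact_mod_cast hK0
  have he' : ∀ z z', dist z z' = ω (dist (e.symm z) (e.symm z')) := fun z z' => by
    rw [← he, e.apply_symm_apply, e.apply_symm_apply]
  have hle : ∀ x y (t : ℝ), dist x y ≤ t → dist (e x) (e y) ≤ ω t := fun x y t h => by
    rw [he]; exact h2 (Set.mem_Ici.2 dist_nonneg) (Set.mem_Ici.2 (dist_nonneg.trans h)) h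
  set lam : ℝ := u / 5 - 1 with hlamdef
  have hmain : ∀ δ > 0, 0 ≤ lam ∧ 1 - 0 / (D : ℝ) - 1 / ω D * (lam * ω K + δ) ≤
      lam * (2 * (1 / ω K)) * 1 + 1 / D + 2 / (D * 1) * (lam * ω K + δ) +
        4 * δ * (1 + 2 * (1 / ω K) * (lam * ω K + δ)) := by
    intro δ hδ
    obtain ⟨A, hA⟩ := key o' (K := K) (R := D) (by linarith) (by linarith) (hard_bd K D hK0 hKD)
      e e.symm (1 / ω K) (1 / ω D) 1 0 (ω K) 1 (ω D) (by have := hω1 _ hK1'; positivity)
      (by positivity) one_pos (by linarith) zero_le_one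
      (fun z z' => by
        rw [he' z z']; exact gauge_min h1 h2 h0 dist_nonneg (by linarith) (by linarith))
      (fun z z' => by
        rw [he' z z']; exact gauge_min h1 h2 h0 dist_nonneg (by linarith) (by linarith))
      (fun z z' hz => by
        rw [he' z z']; exact hω1 _ (glue_one_le _ (e.symm.injective.ne hz)))
      (fun x => by simp) (fun x y h => hle x y _ h) (fun x y h => h3 ▸ hle x y _ h)
      (fun x _ => by
        rw [← e.apply_symm_apply o']
        refine hle _ _ _ ?_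
        rw [glue_dist]
        exact_mod_cast gd_bd hD _ _) δ hδ
    obtain ⟨T, hT, hn, hc⟩ := exists_op hB A hδ
    exact ⟨(norm_nonneg T).trans hn, hA lam δ T hT hn hδ.le hc⟩
  have hlam := (hmain 1 one_pos).1
  have hlim : 1 - 0 / (D : ℝ) - 1 / ω D * (lam * ω K + 0) ≤
      lam * (2 * (1 / ω K)) * 1 + 1 / D + 2 / (D * 1) * (lam * ω K + 0) +
        4 * 0 * (1 + 2 * (1 / ω K) * (lam * ω K + 0)) := by
    refine le_of_tendsto_of_tendsto (b := nhdsWithin (0 : ℝ) (Set.Ioi 0))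
      (f := fun δ => 1 - 0 / (D : ℝ) - 1 / ω D * (lam * ω K + δ))
      (g := fun δ => lam * (2 * (1 / ω K)) * 1 + 1 / D + 2 / (D * 1) * (lam * ω K + δ) +
        4 * δ * (1 + 2 * (1 / ω K) * (lam * ω K + δ))) ?_ ?_ ?_
    · exact (Continuous.tendsto (by fun_prop) 0).mono_left nhdsWithin_le_nhds
    · exact (Continuous.tendsto (by fun_prop) 0).mono_left nhdsWithin_le_nhds
    · filter_upwards [self_mem_nhdsWithin] with δ hδ using (hmain δ hδ).2
  refine lt_irrefl lam (gauge_numeric (D := D) hu1 hK1 hK2 (by linarith) hlam ?_)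
  rw [hu2]
  simpa using hlim

end Gauge

end

end Vale.Agent.N090B
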