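import Vale.Agent.P090.H117.Func

/-! The upper bound `1 + √(2 D)`. -/

set_option linter.all false

namespace Vale.Agent.N090B

open Vale.Agent.P090 Vale.Agent.P090.H117

set_option maxSynthPendingDepth 3

noncomputable section

variable {M : Type} [MetricSpace M] {o : M}

theorem bap_of_fix {C : ℝ} (hC : 0 ≤ C)
    (h : ∀ A : Finset M, ∃ T : ↥(LipSpan M o) →L[ℝ] ↥(LipSpan M o),
      FiniteDimensional ℝ (LinearMap.range (T : ↥(LipSpan M o) →ₗ[ℝ] ↥(LipSpan M o))) ∧
      ‖T‖ ≤ C ∧ ∀ a ∈ A, T (deltaF o a) = deltaF o a) : HasBAPWith C (LipFree M o) := by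
  classical
  rw [hasBAPWith_lipFree_iff]
  intro K hK ε hε
  set η : ℝ := ε / (2 * (C + 2)) with hη
  have hη0 : 0 < η := by positivity
  obtain ⟨t, -, ht, hcov⟩ := hK.finite_cover_balls hη0
  have hfix : ∀ v ∈ Submodule.span ℝ (Set.range (deltaF o)), ∃ S : Finset M,
      ∀ T : ↥(LipSpan M o) →L[ℝ] ↥(LipSpan M o), (∀ a ∈ S, T (deltaF o a) = deltaF o a) →
        T v = v := by
    intro v hv
    induction hv using Submodule.span_induction with
    | mem φ h =>
      obtain ⟨x, rfl⟩ := h
      exact ⟨{x}, fun T hT => hT x (Finset.mem_singleton_self x)⟩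
    | zero => exact ⟨∅, fun T _ => map_zero _⟩
    | add φ ψ _ _ h2 h3 =>
      obtain ⟨S, hS⟩ := h2
      obtain ⟨S', hS'⟩ := h3
      refine ⟨S ∪ S', fun T h => ?_⟩
      rw [map_add, hS T (fun a ha => h a (Finset.mem_union_left _ ha)),
        hS' T (fun a ha => h a (Finset.mem_union_right _ ha))]
    | smul c φ _ h2 =>
      obtain ⟨S, hS⟩ := h2
      exact ⟨S, fun T h => by rw [map_smul, hS T h]⟩
  have hap : ∀ u : LipSpan M o, ∃ v : LipSpan M o, dist u v < η ∧ ∃ S : Finset M,
      ∀ T : ↥(LipSpan M o) →L[ℝ] ↥(LipSpan M o), (∀ a ∈ S, T (deltaF o a) = deltaF o a) →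
        T v = v := by
    intro u
    obtain ⟨v, hv, hd⟩ := Metric.mem_closure_iff.1
      ((isLipFree_lipSpan (M := M) (o := o)).dense u) η hη0
    exact ⟨v, hd, hfix v hv⟩
  choose v hv S hS using hap
  obtain ⟨T, hT, hn, hA⟩ := h (ht.toFinset.biUnion S)
  refine ⟨T, hT, hn, fun u hu => ?_⟩
  obtain ⟨x, hx, hux⟩ : ∃ x ∈ t, u ∈ Metric.ball x η := by simpa using hcov hu
  have hfx : T (v x) = v x := hS x T fun a ha =>
    hA a (Finset.mem_biUnion.2 ⟨x, ht.mem_toFinset.2 hx, ha⟩)
  have hd : ‖u - v x‖ < 2 * η := by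
    rw [← dist_eq_norm]
    calc dist u (v x) ≤ dist u x + dist x (v x) := dist_triangle _ _ _
      _ < η + η := add_lt_add hux (hv x)
      _ = 2 * η := by ring
  have e1 : T u - u = T (u - v x) - (u - v x) := by
    rw [map_sub, hfx]; abel
  rw [e1]
  calc ‖T (u - v x) - (u - v x)‖ ≤ ‖T (u - v x)‖ + ‖u - v x‖ := norm_sub_le _ _
    _ ≤ C * ‖u - v x‖ + ‖u - v x‖ := by
        have := (T.le_opNorm (u - v x)).trans
          (mul_le_mul_of_nonneg_right hn (norm_nonneg _))
        linarith
    _ = (C + 1) * ‖u - v x‖ := by ring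
    _ ≤ (C + 1) * (2 * η) := mul_le_mul_of_nonneg_left hd.le (by linarith)
    _ < ε := by
        rw [hη]
        have h5 : 0 < C + 2 := by linarith
        rw [show (C + 1) * (2 * (ε / (2 * (C + 2)))) = ε * ((C + 1) / (C + 2)) by
          field_simp]
        have h6 : (C + 1) / (C + 2) < 1 := by rw [div_lt_one h5]; linarith
        nlinarith

theorem exists_fix_op (h1 : ∀ x y : M, x ≠ y → 1 ≤ dist x y) {D : ℝ} (hD : 0 < D)
    (A : Finset M) (hA : ∀ a ∈ A, dist a o ≤ D) :
    ∃ T : ↥(LipSpan M o) →L[ℝ] ↥(LipSpan M o),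
      FiniteDimensional ℝ (LinearMap.range (T : ↥(LipSpan M o) →ₗ[ℝ] ↥(LipSpan M o))) ∧
      ‖T‖ ≤ 1 + √(2 * D) ∧ ∀ a ∈ A, T (deltaF o a) = deltaF o a := by
  classical
  set R : ℝ := √(2 * D) with hRdef
  have hR : 0 < R := Real.sqrt_pos.2 (by linarith)
  have hR2 : R * R = 2 * D := Real.mul_self_sqrt (by linarith)
  have hex : ∀ x : M, ∃ n ∈ insert o A, ∀ a ∈ insert o A, dist x n ≤ dist x a := fun x =>
    Finset.exists_min_image _ _ (Finset.insert_nonempty _ _)
  choose n hn hmin using hex
  have hnD : ∀ x, dist (n x) o ≤ D := by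
    intro x
    rcases Finset.mem_insert.1 (hn x) with h | h
    · rw [h, dist_self]; exact hD.le
    · exact hA _ h
  have hna : ∀ a ∈ insert o A, n a = a := fun a ha =>
    (dist_le_zero.1 ((hmin a a ha).trans (dist_self a).le)).symm
  let l : M → ℝ := fun x => max 0 (1 - dist x (n x) / R)
  let g : M → ↥(LipSpan M o) := fun x => l x • deltaF o (n x)
  have hga : ∀ a ∈ insert o A, g a = deltaF o a := by
    intro a ha
    simp only [g, l]
    rw [hna a ha, dist_self]
    simp
  have hone : ∀ x y, x ≠ y → dist x (n x) ≤ dist y (n y) →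
      ‖g x - g y‖ ≤ (1 + R) * dist x y := by
    intro x y hxy hle
    have hd := h1 x y hxy
    have e1 : g x - g y = (l x - l y) • deltaF o (n x) + l y • (deltaF o (n x) - deltaF o (n y)) := by
      simp only [g]
      rw [sub_smul, smul_sub]
      abel
    have e2 : dist y (n y) ≤ dist x y + dist x (n x) := by
      have := hmin y (n x) (hn x)
      have := dist_triangle y x (n x)
      rw [dist_comm y x] at this
      linarith
    have e3 : |l x - l y| ≤ dist x y / R := by
      refine (abs_max_sub_max_le_max _ _ _ _).trans (max_le (by simp; positivity) ?_)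
      rw [show 1 - dist x (n x) / R - (1 - dist y (n y) / R) =
        (dist y (n y) - dist x (n x)) / R by ring, abs_div, abs_of_pos hR,
        abs_of_nonneg (by linarith)]
      exact div_le_div_of_nonneg_right (by linarith) hR.le
    have e4 : ‖deltaF o (n x)‖ ≤ D := (norm_delta_le (n x)).trans (hnD x)
    have e5 : ‖deltaF o (n x) - deltaF o (n y)‖ ≤ 2 * dist y (n y) + dist x y := by
      refine (norm_deltaF_sub_le _ _).trans ?_
      have := dist_triangle4 (n x) x y (n y)
      rw [dist_comm (n x) x] at this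
      linarith
    have hl0 : 0 ≤ l y := le_max_left _ _
    have hl1 : l y ≤ 1 := max_le zero_le_one (by
      have : 0 ≤ dist y (n y) / R := by positivity
      linarith)
    have e6 : l y * (2 * dist y (n y)) ≤ R / 2 := by
      rcases max_choice 0 (1 - dist y (n y) / R) with h | h
      · simp only [l]; rw [h]; linarith
      · simp only [l]; rw [h]
        have e7 : (1 - dist y (n y) / R) * (2 * dist y (n y)) =
            R / 2 - (R - 2 * dist y (n y)) ^ 2 / (2 * R) := by
          field_simp; ring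
        rw [e7]
        have : 0 ≤ (R - 2 * dist y (n y)) ^ 2 / (2 * R) := by positivity
        linarith
    have e8 : dist x y / R * D = R / 2 * dist x y := by
      field_simp
      nlinarith
    rw [e1]
    refine (norm_add_le _ _).trans ?_
    rw [norm_smul, norm_smul, Real.norm_eq_abs, Real.norm_eq_abs, abs_of_nonneg hl0]
    have e9 : |l x - l y| * ‖deltaF o (n x)‖ ≤ dist x y / R * D :=
      mul_le_mul e3 e4 (norm_nonneg _) (by positivity)
    have e10 := mul_le_mul_of_nonneg_left e5 hl0
    have e11 : l y * dist x y ≤ 1 * dist x y := mul_le_mul_of_nonneg_right hl1 dist_nonneg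
    have e12 : R / 2 * 1 ≤ R / 2 * dist x y := mul_le_mul_of_nonneg_left hd (by positivity)
    linarith
  have hg : ∀ x y, ‖g x - g y‖ ≤ (1 + R) * dist x y := by
    intro x y
    rcases eq_or_ne x y with rfl | hxy
    · simp
    rcases le_total (dist x (n x)) (dist y (n y)) with h | h
    · exact hone x y hxy h
    · rw [norm_sub_rev, dist_comm]
      exact hone y x hxy.symm h
  have hgo : g o = 0 := by rw [hga o (Finset.mem_insert_self _ _), deltaF_base]
  set T := push o g (1 + R) (by linarith) hg with hT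
  have hTd : ∀ x, T (deltaF o x) = g x := fun x => by rw [hT, push_delta, hgo, sub_zero]
  refine ⟨T, ?_, norm_push_le _ _ _ _, fun a ha => ?_⟩
  · let W : Submodule ℝ ↥(LipSpan M o) :=
      Submodule.span ℝ (deltaF o '' ((insert o A : Finset M) : Set M))
    have hW : FiniteDimensional ℝ W :=
      FiniteDimensional.span_of_finite ℝ ((Finset.finite_toSet _).image _)
    have hcl : IsClosed (W : Set ↥(LipSpan M o)) := W.closed_of_finiteDimensional
    have hsub : Submodule.span ℝ (Set.range (deltaF o)) ≤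
        W.comap (T : ↥(LipSpan M o) →ₗ[ℝ] ↥(LipSpan M o)) := by
      rw [Submodule.span_le]
      rintro _ ⟨x, rfl⟩
      show T (deltaF o x) ∈ W
      rw [hTd]
      exact W.smul_mem _ (Submodule.subset_span ⟨_, hn x, rfl⟩)
    have hle : LinearMap.range (T : ↥(LipSpan M o) →ₗ[ℝ] ↥(LipSpan M o)) ≤ W := by
      rintro _ ⟨u, rfl⟩
      exact (hcl.preimage T.continuous).closure_subset_iff.2 hsub
        ((isLipFree_lipSpan (M := M) (o := o)).dense u)
    exact Submodule.finiteDimensional_of_le hle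
  · rw [hTd, hga a (Finset.mem_insert_of_mem ha)]

theorem bap_sqrt (h1 : ∀ x y : M, x ≠ y → 1 ≤ dist x y) {D : ℝ} (hD : 0 < D)
    (h2 : ∀ x, dist x o ≤ D) : HasBAPWith (1 + √(2 * D)) (LipFree M o) :=
  bap_of_fix (by positivity) fun A => exists_fix_op h1 hD A fun a _ => h2 a

end

end Vale.Agent.N090B
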